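import Vale.Agent.P122W36.Defs
import Mathlib.Analysis.Fourier.AddCircleMulti
import Mathlib.Analysis.SpecialFunctions.Pow.Real
import Mathlib.MeasureTheory.Function.LocallyIntegrable

/-!
# P140: renormalized entropy solutions of the hard-sphere Boltzmann equation on the torus
-/

open MeasureTheory Set
open scoped ENNReal

namespace Vale.Agent.P140W36

open Vale.Agent.P122W36 (R3)

/-- the torus `ℝ³ / ℤ³` -/
abbrev T3 : Type := UnitAddTorus (Fin 3)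

/-- the phase space `Ω` -/
abbrev Om : Type := T3 × R3

/-- the projection `ℝ³ → ℝ³ / ℤ³` -/
def proj (x : R3) : T3 := fun i => (x i : UnitAddCircle)

/-- `a = (v - w) ⬝ ω`, where `w` is `v_*` -/
noncomputable def ang (v w ω : R3) : ℝ := inner ℝ (v - w) ω

/-- the product `F F_*` -/
def pre (f : Om → ℝ) (p : Om) (z : R3 × R3) : ℝ := f p * f (p.1, z.1)

/-- the product `F' F_*'`, with `v' = v - a ω`, `v_*' = v_* + a ω`, where `z` is `v_*, ω` -/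
noncomputable def post (f : Om → ℝ) (p : Om) (z : R3 × R3) : ℝ :=
  f (p.1, p.2 - ang p.2 z.1 z.2 • z.2) * f (p.1, z.1 + ang p.2 z.1 z.2 • z.2)

/-- the measure `dv_* dω` -/
noncomputable def dwo (σ : Measure R3) : Measure (R3 × R3) := (volume : Measure R3).prod σ

/-- the gain term `Q⁺` -/
noncomputable def gain (σ : Measure R3) (f : Om → ℝ) (p : Om) : ℝ≥0∞ :=
  ∫⁻ z, ENNReal.ofReal (|ang p.2 z.1 z.2| * post f p z) ∂dwo σ

/-- the loss term `Q⁻` -/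
noncomputable def loss (σ : Measure R3) (f : Om → ℝ) (p : Om) : ℝ≥0∞ :=
  ∫⁻ z, ENNReal.ofReal (|ang p.2 z.1 z.2| * pre f p z) ∂dwo σ

/-- the Maxwellian `M` -/
noncomputable def M (v : R3) : ℝ := (2 * Real.pi) ^ (-(3 / 2) : ℝ) * Real.exp (-‖v‖ ^ 2 / 2)

/-- `G = F / M` -/
noncomputable def rel (f : Om → ℝ) (p : Om) : ℝ := f p / M p.2

/-- the integrand of the relative entropy -/
noncomputable def ent (f : Om → ℝ) (p : Om) : ℝ := f p * Real.log (f p / M p.2) - f p + M p.2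

/-- ` (p - q) log (p / q)`, with the value `0` at `p = q = 0` and `∞` if exactly one of `p, q`
vanishes -/
noncomputable def dens (p q : ℝ) : ℝ≥0∞ :=
  if 0 < p ∧ 0 < q then ENNReal.ofReal ((p - q) * Real.log (p / q)) else if p = q then 0 else ∞

/-- the entropy dissipation `D` -/
noncomputable def diss (σ : Measure R3) (f : Om → ℝ) : ℝ≥0∞ :=
  1 / 4 * ∫⁻ y : Om × R3 × R3, ENNReal.ofReal |ang y.1.2 y.2.1 y.2.2| *
    dens (post f y.1 y.2) (pre f y.1 y.2) ∂(volume : Measure Om).prod (dwo σ)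

/-- `F (1 + |v|² + |log F|)` -/
noncomputable def wt (f : Om → ℝ) (p : Om) : ℝ := f p * (1 + ‖p.2‖ ^ 2 + |Real.log (f p)|)

/-- a datum -/
def IsDatum (F0 : Om → ℝ) : Prop := Measurable F0 ∧ (∀ p, 0 ≤ F0 p) ∧ Integrable (wt F0)

/-- `∂ₜ` -/
noncomputable def dt (φ : ℝ × T3 → ℝ) (y : ℝ × T3) : ℝ := deriv (fun s => φ (s, y.2)) y.1

/-- the derivative in the direction `x i` -/
noncomputable def dx (i : Fin 3) (φ : ℝ × T3 → ℝ) (y : ℝ × T3) : ℝ :=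
  deriv (fun s : ℝ => φ (y.1, y.2 + Pi.single i (s : UnitAddCircle))) 0

/-- ` (∂ₜ + v ⬝ ∇ₓ) φ` -/
noncomputable def transport (φ : ℝ × Om → ℝ) (q : ℝ × Om) : ℝ :=
  dt (fun y => φ (y.1, y.2, q.2.2)) (q.1, q.2.1) +
    ∑ i, q.2.2 i * dx i (fun y => φ (y.1, y.2, q.2.2)) (q.1, q.2.1)

/-- the points with a time in `S` -/
def slab (Y : Type) (S : Set ℝ) : Set (ℝ × Y) := S ×ˢ univ

/-- ` (∂ₜ + v ⬝ ∇ₓ) u = r` in distributions on `[0, ∞) × Ω` with the initial value `u0` -/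
def IsTransport (u r : ℝ × Om → ℝ) (u0 : Om → ℝ) : Prop :=
  LocallyIntegrableOn u (slab Om (Ici 0)) ∧ LocallyIntegrableOn r (slab Om (Ici 0)) ∧
    LocallyIntegrable u0 ∧ ∀ φ : ℝ × Om → ℝ,
      (ContDiff ℝ (⊤ : ℕ∞) fun q : ℝ × R3 × R3 => φ (q.1, proj q.2.1, q.2.2)) → HasCompactSupport φ →
      (∫ q in slab Om (Ici 0), u q * transport φ q) + (∫ q in slab Om (Ici 0), r q * φ q) +
        ∫ p, u0 p * φ (0, p) = 0

/-- `∂ₜ ρ + ∇ₓ ⬝ j = 0` in distributions on `[0, ∞) × 𝕋³` with the initial trace `ρ0` -/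
def IsConservation (ρ : ℝ × T3 → ℝ) (j : Fin 3 → ℝ × T3 → ℝ) (ρ0 : T3 → ℝ) : Prop :=
  LocallyIntegrableOn ρ (slab T3 (Ici 0)) ∧ (∀ i, LocallyIntegrableOn (j i) (slab T3 (Ici 0))) ∧
    LocallyIntegrable ρ0 ∧ ∀ φ : ℝ × T3 → ℝ,
      (ContDiff ℝ (⊤ : ℕ∞) fun q : ℝ × R3 => φ (q.1, proj q.2)) → HasCompactSupport φ →
      (∫ y in slab T3 (Ici 0), (ρ y * dt φ y + ∑ i, j i y * dx i φ y)) +
        ∫ x, ρ0 x * φ (0, x) = 0

/-- the moment `∫ ψ f dv` -/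
noncomputable def moment (ψ : R3 → ℝ) (f : Om → ℝ) (x : T3) : ℝ := ∫ v, ψ v * f (x, v)

/-- the balance `B_ψ` -/
def Balance (ψ : R3 → ℝ) (F0 : Om → ℝ) (F : ℝ → Om → ℝ) : Prop :=
  (∀ t, 0 ≤ t → Integrable (fun p : Om => ψ p.2 * F t p) ∧
    ∀ i, Integrable fun p : Om => p.2 i * ψ p.2 * F t p) ∧
  IsConservation (fun y => moment ψ (F y.1) y.2)
    (fun i y => moment (fun v => v i * ψ v) (F y.1) y.2) (moment ψ F0)

/-- `Q / (1 + G) ∈ L¹([0, T] × Ω)` for all `T` -/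
def Weighted (F : ℝ → Om → ℝ) (Q : (Om → ℝ) → Om → ℝ≥0∞) : Prop :=
  ∀ T : ℝ, (∀ᵐ q : ℝ × Om ∂volume.restrict (slab Om (Icc 0 T)), Q (F q.1) q.2 < ∞) ∧
    IntegrableOn (fun q => (Q (F q.1) q.2).toReal / (1 + rel (F q.1) q.2)) (slab Om (Icc 0 T))

/-- condition (i) -/
def CondI (F0 : Om → ℝ) (F : ℝ → Om → ℝ) : Prop :=
  (∀ t, 0 ≤ t → Integrable (F t)) ∧
  (∀ θ : Om → ℝ, Measurable θ → (∃ C, ∀ p, |θ p| ≤ C) →
    ContinuousOn (fun t => ∫ p, F t p * θ p) (Ici 0)) ∧ F 0 =ᵐ[volume] F0 ∧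
  ∀ T : ℝ, ∃ C : ℝ, ∀ t ∈ Icc 0 T, Integrable (wt (F t)) ∧ ∫ p, wt (F t) p ≤ C

/-- condition (ii) -/
def CondII (σ : Measure R3) (F0 : Om → ℝ) (F : ℝ → Om → ℝ) : Prop :=
  Weighted F (gain σ) ∧ Weighted F (loss σ) ∧
  ∀ β : ℝ → ℝ, ContDiffOn ℝ 1 β (Ici 0) → β 0 = 0 →
    (∃ C, ∀ z, 0 ≤ z → |derivWithin β (Ici 0) z| ≤ C / (1 + z)) →
    IsTransport (fun q => M q.2.2 * β (rel (F q.1) q.2))
      (fun q => derivWithin β (Ici 0) (rel (F q.1) q.2) *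
        ((gain σ (F q.1) q.2).toReal - (loss σ (F q.1) q.2).toReal))
      fun p => M p.2 * β (rel F0 p)

/-- condition (iii) -/
def CondIII (σ : Measure R3) (F0 : Om → ℝ) (F : ℝ → Om → ℝ) : Prop :=
  Balance (fun _ => 1) F0 F ∧
  (∃ m : R3, ∀ t, 0 ≤ t → Integrable (fun p : Om => F t p • p.2) ∧ ∫ p : Om, F t p • p.2 = m) ∧
  (∀ t, 0 ≤ t → Integrable (fun p : Om => ‖p.2‖ ^ 2 * F t p) ∧
    ∫ p : Om, ‖p.2‖ ^ 2 * F t p ≤ ∫ p : Om, ‖p.2‖ ^ 2 * F0 p) ∧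
  (Measurable fun s => diss σ (F s)) ∧ Integrable (ent F0) ∧
  ∀ t, 0 ≤ t → Integrable (ent (F t)) ∧ (∫⁻ s in Icc 0 t, diss σ (F s)) < ∞ ∧
    (∫ p, ent (F t) p) + (∫⁻ s in Icc 0 t, diss σ (F s)).toReal ≤ ∫ p, ent F0 p

/-- a renormalized entropy solution with the datum `F0` -/
def IsSol (σ : Measure R3) (F0 : Om → ℝ) (F : ℝ → Om → ℝ) : Prop :=
  (Measurable fun q : ℝ × Om => F q.1 q.2) ∧ (∀ t p, 0 ≤ F t p) ∧ CondI F0 F ∧ CondII σ F0 F ∧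
    CondIII σ F0 F

/-- Q1: every datum has at most one solution, up to equality almost everywhere -/
def Uniqueness (σ : Measure R3) : Prop :=
  ∀ F0 F G, IsDatum F0 → IsSol σ F0 F → IsSol σ F0 G →
    ∀ᵐ q : ℝ × Om ∂volume.restrict (slab Om (Ici 0)), F q.1 q.2 = G q.1 q.2

end Vale.Agent.P140W36
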