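import Vale.Agent.P140W36.Main
import Vale.Agent.P140W90.Tr0
import Vale.Agent.P140W62.Coll
import Vale.Agent.P140W19.C1
import Vale.Agent.P140W7.Bal
import Vale.Agent.P140W96.Ent
import Vale.Agent.P127W36.Sph
import Vale.Agent.P122.FI.Examples

/-! # P140: the assembled statement -/

open MeasureTheory Metric Vale.Agent.P140W36 Vale.Agent.P122W36

theorem Vale.Agent.P140W36.final :
    IsSurface (sphere (0 : R3) 1) ∧ (∃! σ : Measure R3, IsSurfaceMeasure (sphere 0 1) σ) ∧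
    ∀ σ : Measure R3, IsSurfaceMeasure (sphere 0 1) σ →
      σ = (Measure.euclideanHausdorffMeasure 2).restrict (sphere 0 1) ∧ ¬ Uniqueness σ ∧
      ∃ (F0 : Om → ℝ) (F G : ℝ → Om → ℝ), IsDatum F0 ∧ IsSol σ F0 F ∧ IsSol σ F0 G ∧
        ∃ t : ℝ, 0 ≤ t ∧ ¬ F t =ᵐ[volume] G t := by
  have hS := (of_posCurved Vale.Agent.P122.FI.posCurved_sphere).1
  refine ⟨hS, ⟨_, hS.isSurfaceMeasure, fun σ h => hS.unique h hS.isSurfaceMeasure⟩,
    fun σ h => ⟨hS.unique h hS.isSurfaceMeasure, ?_⟩⟩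
  have e : σ = s0 := hS.unique h Vale.Agent.P127W36.isSurfaceMeasure_toSphere
  rw [e]
  exact main tr0_90 tr1_90 coll62 c1 bal ent_row
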