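import Vale.Agent.P140W36.Rows

/-! # P140: slabs and test functions -/

open MeasureTheory Set Filter Topology
open scoped ENNReal

namespace Vale.Agent.P140W36

open Vale.Agent.P122W36 (R3)
open Vale.Agent.P140

section
variable {Y : Type} [MeasureSpace Y]

theorem slab_ae [SigmaFinite (volume : Measure Y)] :
    slab Y (Ici 0) =ᵐ[(volume : Measure (ℝ × Y))] (Ioi 0 ×ˢ univ : Set (ℝ × Y)) := by
  rw [Measure.volume_eq_prod]
  exact Measure.set_prod_ae_eq (Ioi_ae_eq_Ici).symm (ae_eq_refl _)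

theorem restrict_slab [SigmaFinite (volume : Measure Y)] (S : Set ℝ) :
    (volume : Measure (ℝ × Y)).restrict (slab Y S) =
      ((volume : Measure ℝ).restrict S).prod (volume : Measure Y) := by
  rw [Measure.volume_eq_prod, slab, Measure.restrict_prod_eq_prod_univ]

theorem measurableSet_slab {S : Set ℝ} (hS : MeasurableSet S) : MeasurableSet (slab Y S) :=
  hS.prod MeasurableSet.univ

variable [TopologicalSpace Y]

theorem locInt_of_slabs {u : ℝ × Y → ℝ} (h : ∀ T : ℝ, IntegrableOn u (slab Y (Icc 0 T))) :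
    LocallyIntegrableOn u (slab Y (Ici 0)) := by
  intro q _
  refine ⟨slab Y (Icc 0 (q.1 + 1)), ?_, h _⟩
  have h1 : {p : ℝ × Y | p.1 < q.1 + 1} ∈ 𝓝 q :=
    (isOpen_lt continuous_fst continuous_const).mem_nhds (by simp)
  filter_upwards [self_mem_nhdsWithin, mem_nhdsWithin_of_mem_nhds h1] with p hp hp'
  exact ⟨⟨hp.1, le_of_lt hp'⟩, trivial⟩

theorem intOn_mul [T2Space Y] [OpensMeasurableSpace (ℝ × Y)] {u g : ℝ × Y → ℝ}
    (hu : LocallyIntegrableOn u (slab Y (Ici 0))) (hg : Continuous g) (hc : HasCompactSupport g) :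
    IntegrableOn (fun q => u q * g q) (slab Y (Ici 0)) := by
  have hcl : IsClosed (slab Y (Ici 0)) := isClosed_Ici.prod isClosed_univ
  have hK : IsCompact (tsupport g ∩ slab Y (Ici 0)) := hc.isCompact.inter_right hcl
  have h1 : IntegrableOn u (tsupport g ∩ slab Y (Ici 0)) :=
    hu.integrableOn_compact_subset inter_subset_right hK
  refine (h1.mul_continuousOn hg.continuousOn hK).of_forall_sdiff_eq_zero hcl.measurableSet ?_
  intro q hq
  have : q ∉ tsupport g := fun h => hq.2 ⟨h, hq.1⟩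
  rw [image_eq_zero_of_notMem_tsupport this, mul_zero]

end

theorem measurable_wt {F : ℝ → Om → ℝ} (hF : Measurable fun q : ℝ × Om => F q.1 q.2) :
    Measurable fun q : ℝ × Om => wt (F q.1) q.2 := by
  unfold wt
  exact hF.mul ((measurable_const.add (measurable_snd.snd.norm.pow_const 2)).add
    (Real.measurable_log.comp hF).abs)

theorem wt_nonneg {f : Om → ℝ} {p : Om} (h : 0 ≤ f p) : 0 ≤ wt f p := by
  unfold wt; positivity

theorem le_wt {f : Om → ℝ} {p : Om} (h : 0 ≤ f p) : f p ≤ wt f p := by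
  unfold wt
  have : 0 ≤ ‖p.2‖ ^ 2 + |Real.log (f p)| := by positivity
  nlinarith

theorem slab_wt {F0 : Om → ℝ} {F : ℝ → Om → ℝ} (h : Stt.IsSol proj F0 F) (T : ℝ) :
    IntegrableOn (fun q : ℝ × Om => wt (F q.1) q.2) (slab Om (Icc 0 T)) := by
  obtain ⟨C, hC⟩ := h.bounded T
  have hm := measurable_wt h.measurable
  refine ⟨hm.aestronglyMeasurable, ?_⟩
  rw [hasFiniteIntegral_iff_ofReal (ae_of_all _ fun q => wt_nonneg (h.nonneg _ _)), restrict_slab,
    lintegral_prod _ hm.ennreal_ofReal.aemeasurable]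
  calc ∫⁻ t in Icc 0 T, ∫⁻ p : Om, ENNReal.ofReal (wt (F t) p)
      ≤ ∫⁻ _ in Icc 0 T, ENNReal.ofReal C :=
        setLIntegral_mono' measurableSet_Icc fun t ht => hC t ht
    _ < ∞ := by
        rw [setLIntegral_const]
        exact ENNReal.mul_lt_top ENNReal.ofReal_lt_top measure_Icc_lt_top

theorem slab_F {F0 : Om → ℝ} {F : ℝ → Om → ℝ} (h : Stt.IsSol proj F0 F) (T : ℝ) :
    IntegrableOn (fun q : ℝ × Om => F q.1 q.2) (slab Om (Icc 0 T)) :=
  (slab_wt h T).mono' h.measurable.aestronglyMeasurable (ae_of_all _ fun q => by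
    rw [Real.norm_of_nonneg (h.nonneg _ _)]; exact le_wt (h.nonneg _ _))

end Vale.Agent.P140W36
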