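import Vale.Agent.P140W36.Ren
import Vale.Agent.P140.Bd3.B21

/-! # P140: two solutions in the literal class -/

open MeasureTheory Set Filter Topology
open scoped ENNReal

namespace Vale.Agent.P140W36

open Vale.Agent.P122W36 (R3)
open Vale.Agent.P140

theorem main (h0 : TR0) (h1 : TR1) (hc : COLL) (c1 : C1) (hb : BAL) (he : ENT) :
    ¬ Uniqueness s0 ∧
      ∃ (F0 : Om → ℝ) (F G : ℝ → Om → ℝ), IsDatum F0 ∧ IsSol s0 F0 F ∧ IsSol s0 F0 G ∧
        ∃ t : ℝ, 0 ≤ t ∧ ¬ F t =ᵐ[volume] G t := by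
  obtain ⟨F0, F, G, hF, hG, ht, hne⟩ := NU.disproof (π := proj) fun _ _ => rfl
  obtain ⟨d, sF⟩ := bridge h0 h1 hc c1 hb he ren hF
  obtain ⟨-, sG⟩ := bridge h0 h1 hc c1 hb he ren hG
  refine ⟨fun hU => hne ?_, F0, F, G, d, sF, sG, ht⟩
  have := (ae_restrict_iff' (measurableSet_slab measurableSet_Ici)).mp (hU F0 F G d sF sG)
  filter_upwards [this] with q hq h
  exact hq ⟨h, trivial⟩

end Vale.Agent.P140W36
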