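import Vale.Agent.P140W36.Kit

/-! # P140: the renormalized equation -/

open MeasureTheory Set Filter Topology
open scoped ENNReal

namespace Vale.Agent.P140W36

open Vale.Agent.P122W36 (R3)
open Vale.Agent.P140

theorem weighted_aux {Z : Type} [MeasurableSpace Z] {μ : Measure Z} {Q : Z → ℝ≥0∞} {D : Z → ℝ}
    (hQ : Measurable Q) (hD : Measurable D) (h0 : ∀ z, 0 ≤ D z)
    (h : ∫⁻ z, Q z / ENNReal.ofReal (D z) ∂μ < ∞) :
    (∀ᵐ z ∂μ, Q z < ∞) ∧ Integrable (fun z => (Q z).toReal / D z) μ := by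
  have hm : Measurable fun z => Q z / ENNReal.ofReal (D z) := hQ.div hD.ennreal_ofReal
  refine ⟨?_, ?_⟩
  · filter_upwards [ae_lt_top hm h.ne] with z hz
    by_contra hh
    rw [not_lt, top_le_iff] at hh
    rw [hh, ENNReal.top_div_of_ne_top ENNReal.ofReal_ne_top] at hz
    exact lt_irrefl _ hz
  · refine (integrable_toReal_of_lintegral_ne_top hm.aemeasurable h.ne).congr
      (ae_of_all _ fun z => ?_)
    simp only [ENNReal.toReal_div, ENNReal.toReal_ofReal (h0 z)]

theorem M_pos (v : R3) : 0 < M v := by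
  unfold M
  exact mul_pos (Real.rpow_pos_of_pos (by positivity) _) (Real.exp_pos _)

theorem measurable_M : Measurable M := by
  unfold M
  fun_prop

theorem rel_nonneg {f : Om → ℝ} {p : Om} (h : 0 ≤ f p) : 0 ≤ rel f p :=
  div_nonneg h (M_pos _).le

theorem meas_comp {Z : Type} [MeasurableSpace Z] {β : ℝ → ℝ} (hβ : ContinuousOn β (Ici 0))
    {g : Z → ℝ} (hg : Measurable g) (h0 : ∀ z, 0 ≤ g z) : Measurable fun z => β (g z) := by
  have h1 : Continuous fun x : ℝ => β (max x 0) :=
    hβ.comp_continuous (continuous_id.max continuous_const) fun x => le_max_right x 0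
  have : (fun z => β (g z)) = fun z => β (max (g z) 0) := by
    funext z; rw [max_eq_left (h0 z)]
  rw [this]
  exact h1.measurable.comp hg

theorem beta_le {β : ℝ → ℝ} (hβ : ContDiffOn ℝ 1 β (Ici 0)) (h0 : β 0 = 0) {C : ℝ}
    (hC : ∀ z, 0 ≤ z → |derivWithin β (Ici 0) z| ≤ C / (1 + z)) {z : ℝ} (hz : 0 ≤ z) :
    |β z| ≤ C * z := by
  have hC0 : 0 ≤ C := by simpa using (abs_nonneg _).trans (hC 0 le_rfl)
  have := Convex.norm_image_sub_le_of_norm_derivWithin_le (C := C)
    (hβ.differentiableOn one_ne_zero) (fun x hx => by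
      refine (hC x hx).trans (div_le_self hC0 ?_)
      have : (0 : ℝ) ≤ x := hx
      linarith) (convex_Ici (0 : ℝ)) (self_mem_Ici (a := (0 : ℝ))) (show z ∈ Ici 0 from hz)
  simpa [h0, abs_of_nonneg hz] using this

theorem ren_le {β : ℝ → ℝ} (hβ : ContDiffOn ℝ 1 β (Ici 0)) (h0 : β 0 = 0) {C : ℝ}
    (hC : ∀ z, 0 ≤ z → |derivWithin β (Ici 0) z| ≤ C / (1 + z)) {f : Om → ℝ} {p : Om}
    (h : 0 ≤ f p) : ‖M p.2 * β (rel f p)‖ ≤ C * f p := by
  have hM := M_pos p.2
  rw [Real.norm_eq_abs, abs_mul, abs_of_pos hM]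
  calc M p.2 * |β (rel f p)| ≤ M p.2 * (C * rel f p) :=
        mul_le_mul_of_nonneg_left (beta_le hβ h0 hC (rel_nonneg h)) hM.le
    _ = C * f p := by unfold rel; field_simp

theorem exists_radius {φ : ℝ × Om → ℝ} (hc : HasCompactSupport φ) :
    ∃ R : ℝ, ∀ t p, R < |t| ∨ R < ‖p.2‖ → φ (t, p) = 0 := by
  have hcont : Continuous fun q : ℝ × Om => max |q.1| ‖q.2.2‖ := by fun_prop
  obtain ⟨R, hR⟩ := hc.isCompact.bddAbove_image hcont.continuousOn
  refine ⟨R, fun t p h => image_eq_zero_of_notMem_tsupport fun hq => ?_⟩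
  have : max |t| ‖p.2‖ ≤ R := hR (mem_image_of_mem _ hq)
  rcases h with h | h
  · exact absurd ((le_max_left _ _).trans this) (not_le.mpr h)
  · exact absurd ((le_max_right _ _).trans this) (not_le.mpr h)

theorem ren : REN := by
  intro hc h1 F0 F h
  have hFt : ∀ t, Measurable (F t) := fun t => h.measurable.comp measurable_prodMk_left
  have hg : ∀ t p, gain s0 (F t) p = Stt.gain (F t) p := fun t => (hc.2.1 _ (hFt t)).1
  have hl : ∀ t p, loss s0 (F t) p = Stt.loss (F t) p := fun t => (hc.2.1 _ (hFt t)).2.1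
  obtain ⟨mg, ml, -⟩ := hc.2.2 F h.measurable
  have mrel : Measurable fun q : ℝ × Om => rel (F q.1) q.2 :=
    h.measurable.div (measurable_M.comp measurable_snd.snd)
  have r0 : ∀ q : ℝ × Om, 0 ≤ rel (F q.1) q.2 := fun q => rel_nonneg (h.nonneg _ _)
  have mD : Measurable fun q : ℝ × Om => 1 + rel (F q.1) q.2 := measurable_const.add mrel
  have D0 : ∀ q : ℝ × Om, 0 ≤ 1 + rel (F q.1) q.2 := fun q => by linarith [r0 q]
  have hsum : ∀ T : ℝ, ∫⁻ q in slab Om (Icc 0 T), (gain s0 (F q.1) q.2 + loss s0 (F q.1) q.2) /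
      ENNReal.ofReal (1 + rel (F q.1) q.2) < ∞ := by
    intro T
    have mm : Measurable fun q : ℝ × Om => (gain s0 (F q.1) q.2 + loss s0 (F q.1) q.2) /
      ENNReal.ofReal (1 + rel (F q.1) q.2) := (mg.add ml).div mD.ennreal_ofReal
    rw [restrict_slab, lintegral_prod _ mm.aemeasurable]
    simp only [hg, hl, rel, hc.1]
    exact h.collision T
  have wg : Weighted F (gain s0) := fun T =>
    weighted_aux mg mD D0 (lt_of_le_of_lt (lintegral_mono fun q =>
      ENNReal.div_le_div_right le_self_add _) (hsum T))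
  have wl : Weighted F (loss s0) := fun T =>
    weighted_aux ml mD D0 (lt_of_le_of_lt (lintegral_mono fun q =>
      ENNReal.div_le_div_right le_add_self _) (hsum T))
  refine ⟨wg, wl, fun β hβ h0 hCC => ?_⟩
  obtain ⟨C, hC⟩ := hCC
  have hC0 : 0 ≤ C := by simpa using (abs_nonneg _).trans (hC 0 le_rfl)
  have mu : Measurable fun q : ℝ × Om => M q.2.2 * β (rel (F q.1) q.2) :=
    (measurable_M.comp measurable_snd.snd).mul (meas_comp hβ.continuousOn mrel r0)
  have mr : Measurable fun q : ℝ × Om => derivWithin β (Ici 0) (rel (F q.1) q.2) *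
      ((gain s0 (F q.1) q.2).toReal - (loss s0 (F q.1) q.2).toReal) :=
    (meas_comp (hβ.continuousOn_derivWithin (uniqueDiffOn_Ici 0) le_rfl) mrel r0).mul
      (mg.ennreal_toReal.sub ml.ennreal_toReal)
  have lu : LocallyIntegrableOn (fun q : ℝ × Om => M q.2.2 * β (rel (F q.1) q.2))
      (slab Om (Ici 0)) := locInt_of_slabs fun T =>
    ((slab_F h T).const_mul C).mono' mu.aestronglyMeasurable
      (ae_of_all _ fun q => ren_le hβ h0 hC (h.nonneg _ _))
  have lr : LocallyIntegrableOn (fun q : ℝ × Om => derivWithin β (Ici 0) (rel (F q.1) q.2) *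
      ((gain s0 (F q.1) q.2).toReal - (loss s0 (F q.1) q.2).toReal)) (slab Om (Ici 0)) :=
    locInt_of_slabs fun T => (((wg T).2.add (wl T).2).const_mul C).mono' mr.aestronglyMeasurable
      (ae_of_all _ fun q => by
        have a1 := hC _ (r0 q)
        have a2 : 0 ≤ (gain s0 (F q.1) q.2).toReal := ENNReal.toReal_nonneg
        have a3 : 0 ≤ (loss s0 (F q.1) q.2).toReal := ENNReal.toReal_nonneg
        have a4 : |(gain s0 (F q.1) q.2).toReal - (loss s0 (F q.1) q.2).toReal| ≤
            (gain s0 (F q.1) q.2).toReal + (loss s0 (F q.1) q.2).toReal :=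
          abs_le.mpr ⟨by linarith, by linarith⟩
        rw [Real.norm_eq_abs, abs_mul]
        refine (mul_le_mul a1 a4 (abs_nonneg _) (div_nonneg hC0 (D0 q))).trans (le_of_eq ?_)
        simp only [Pi.add_apply]
        ring)
  have i0 : Integrable F0 := (h.integrable 0 le_rfl).congr h.initial
  have m0 : Measurable fun p : Om => M p.2 * β (rel F0 p) :=
    (measurable_M.comp measurable_snd).mul (meas_comp hβ.continuousOn
      (h.datum_measurable.div (measurable_M.comp measurable_snd))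
      fun p => rel_nonneg (h.datum_nonneg p))
  refine ⟨lu, lr, ((i0.const_mul C).mono' m0.aestronglyMeasurable
    (ae_of_all _ fun p => ren_le hβ h0 hC (h.datum_nonneg p))).locallyIntegrable,
    fun φ hφ hs => ?_⟩
  obtain ⟨c1, c2, c3, c4⟩ := h1 φ hφ hs
  rw [← integral_add (intOn_mul lu c2 c3) (intOn_mul lr c1 hs), setIntegral_congr_set slab_ae]
  have := h.renorm β hβ h0 ⟨C, hC⟩ (fun t p => φ (t, p)) hφ (exists_radius hs)
  simp only [c4, hg, hl, rel, hc.1]
  exact this

end Vale.Agent.P140W36
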