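import Vale.Agent.P140W36.Defs
import Vale.Agent.P140.Stt

/-! # P140: the rows of the bridge from `Stt.IsSol` to the literal class -/

open MeasureTheory Set
open scoped ENNReal

namespace Vale.Agent.P140W36

open Vale.Agent.P122W36 (R3)
open Vale.Agent.P140

/-- the surface measure of the source files, as a measure on `ℝ³` -/
noncomputable def s0 : Measure R3 := (volume : Measure R3).toSphere.map Subtype.val

/-- tests on `ℝ × 𝕋³` -/
def TR0 : Prop := ∀ φ : ℝ × T3 → ℝ,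
  (ContDiff ℝ (⊤ : ℕ∞) fun q : ℝ × R3 => φ (q.1, proj q.2)) → HasCompactSupport φ →
  Continuous φ ∧ Continuous (dt φ) ∧ HasCompactSupport (dt φ) ∧
    (∀ i, Continuous (dx i φ) ∧ HasCompactSupport (dx i φ)) ∧
    ∀ (y : ℝ × T3) (v : R3), dt φ y + ∑ i, v i * dx i φ y =
      deriv (fun s : ℝ => φ (y.1 + s, y.2 + proj (s • v))) 0

/-- tests on `ℝ × Ω` -/
def TR1 : Prop := ∀ φ : ℝ × Om → ℝ,
  (ContDiff ℝ (⊤ : ℕ∞) fun q : ℝ × R3 × R3 => φ (q.1, proj q.2.1, q.2.2)) → HasCompactSupport φ →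
  Continuous φ ∧ Continuous (transport φ) ∧ HasCompactSupport (transport φ) ∧
    ∀ q : ℝ × Om, transport φ q =
      deriv (fun s : ℝ => φ (q.1 + s, q.2.1 + proj (s • q.2.2), q.2.2)) 0

/-- the collision integrals agree with those of the source files and are measurable -/
def COLL : Prop := (∀ v : R3, M v = Stt.Maxw v) ∧
  (∀ f : Om → ℝ, Measurable f → (∀ p, gain s0 f p = Stt.gain f p) ∧
    (∀ p, loss s0 f p = Stt.loss f p) ∧
    diss s0 f = 1 / 4 * ∫⁻ x : T3, ∫⁻ v : R3, Stt.coll (fun w v' w' =>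
      Stt.dissDensity (f (x, v') * f (x, w')) (f (x, v) * f (x, w))) v) ∧
  ∀ F : ℝ → Om → ℝ, (Measurable fun q : ℝ × Om => F q.1 q.2) →
    (Measurable fun q : ℝ × Om => gain s0 (F q.1) q.2) ∧
    (Measurable fun q : ℝ × Om => loss s0 (F q.1) q.2) ∧ Measurable fun s => diss s0 (F s)

/-- the datum, condition (i), momentum and energy -/
def C1 : Prop := ∀ (F0 : Om → ℝ) (F : ℝ → Om → ℝ), Stt.IsSol proj F0 F →
  IsDatum F0 ∧ CondI F0 F ∧
  (∃ m : R3, ∀ t, 0 ≤ t → Integrable (fun p : Om => F t p • p.2) ∧ ∫ p : Om, F t p • p.2 = m) ∧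
  (∀ t, 0 ≤ t → Integrable (fun p : Om => ‖p.2‖ ^ 2 * F t p) ∧
    ∫ p : Om, ‖p.2‖ ^ 2 * F t p ≤ ∫ p : Om, ‖p.2‖ ^ 2 * F0 p)

/-- the local mass balance -/
def BAL : Prop := TR0 → ∀ (F0 : Om → ℝ) (F : ℝ → Om → ℝ), Stt.IsSol proj F0 F →
  Balance (fun _ => 1) F0 F

/-- the entropy inequality -/
def ENT : Prop := COLL → ∀ (F0 : Om → ℝ) (F : ℝ → Om → ℝ), Stt.IsSol proj F0 F →
  Integrable (ent F0) ∧
  ∀ t, 0 ≤ t → Integrable (ent (F t)) ∧ (∫⁻ s in Icc 0 t, diss s0 (F s)) < ∞ ∧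
    (∫ p, ent (F t) p) + (∫⁻ s in Icc 0 t, diss s0 (F s)).toReal ≤ ∫ p, ent F0 p

/-- the renormalized equation -/
def REN : Prop := COLL → TR1 → ∀ (F0 : Om → ℝ) (F : ℝ → Om → ℝ), Stt.IsSol proj F0 F →
  CondII s0 F0 F

theorem bridge (h0 : TR0) (h1 : TR1) (hc : COLL) (c1 : C1) (hb : BAL) (he : ENT) (hr : REN)
    {F0 : Om → ℝ} {F : ℝ → Om → ℝ} (h : Stt.IsSol proj F0 F) : IsDatum F0 ∧ IsSol s0 F0 F := by
  obtain ⟨a1, a2, a3, a4⟩ := c1 F0 F h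
  obtain ⟨e1, e2⟩ := he hc F0 F h
  exact ⟨a1, h.measurable, h.nonneg, a2, hr hc h1 F0 F h, hb h0 F0 F h, a3, a4,
    (hc.2.2 F h.measurable).2.2, e1, e2⟩

end Vale.Agent.P140W36
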